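import Vale.Agent.P110.Code

/-!
Nearly flat Littlewood polynomials are exponentially rare, at every exponential rate.
-/

open Complex Finset

namespace Vale.Agent.Results.P110.FlatEntropy

open Vale.Agent.P110

/-- choice of the parameters -/
lemma params {η : ℝ} (hη : 0 < η) : ∃ (B : ℕ) (η' t ρ δ d T Y : ℝ),
    η' = η * Real.log 2 / 3 ∧ 0 < η' ∧ 0 < t ∧ t ≤ 1 ∧ 0 < ρ ∧
    t + ρ * (-Real.log t) ≤ η' ∧ 0 < δ ∧ δ ≤ 1 / 8 ∧ 225 * δ ^ 2 ≤ ρ ∧ 0 < B ∧
    T = 7 * (B : ℝ) ∧ 7 ≤ T ∧ 0 < d ∧ d ≤ δ / 7 ∧ d * T = δ ∧ 1 ≤ Y ∧ T < Y / 2 ∧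
    48 * T ^ 2 / Y ≤ δ ∧ Real.log ((30 / d) ^ 4) ≤ η' * B := by
  set η' : ℝ := η * Real.log 2 / 3 with hη'def
  have hη' : 0 < η' := by have := Real.log_pos one_lt_two; positivity
  -- parameters
  set t : ℝ := min 1 (η' / 2) with htdef
  have ht0 : 0 < t := lt_min one_pos (by linarith)
  have ht1 : t ≤ 1 := min_le_left _ _
  have hlt : 0 ≤ -Real.log t := by linarith [Real.log_nonpos ht0.le ht1]
  set ρ : ℝ := η' / (2 * (1 - Real.log t)) with hρdef
  have hρ : 0 < ρ := by rw [hρdef]; apply div_pos hη'; linarith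
  have hρt : t + ρ * (-Real.log t) ≤ η' := by
    have h2 : ρ * (1 - Real.log t) = η' / 2 := by
      have h3 : (1 - Real.log t) ≠ 0 := by linarith
      rw [hρdef]; field_simp
    nlinarith [min_le_right (1 : ℝ) (η' / 2)]
  set δ : ℝ := min (1 / 8) (Real.sqrt ρ / 15) with hδdef
  have hδ : 0 < δ := lt_min (by norm_num) (by positivity)
  have hδ8 : δ ≤ 1 / 8 := min_le_left _ _
  have hδρ : 225 * δ ^ 2 ≤ ρ := by
    have h1 : δ ≤ Real.sqrt ρ / 15 := min_le_right _ _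
    nlinarith [Real.sq_sqrt hρ.le, mul_self_le_mul_self hδ.le h1]
  obtain ⟨B, hBlarge⟩ := exists_nat_ge (max 1 (64 * (210 / δ) / η' ^ 2))
  have hB1 : (1 : ℝ) ≤ B := le_trans (le_max_left _ _) hBlarge
  have hB : 0 < B := by exact_mod_cast lt_of_lt_of_le one_pos hB1
  set T : ℝ := 7 * B with hTdef
  set d : ℝ := δ / T with hd
  have hT : 7 ≤ T := by rw [hTdef]; linarith
  have hd0 : 0 < d := by rw [hd]; positivity
  have hdδ : d ≤ δ / 7 := by rw [hd]; gcongr
  have hdT : d * T = δ := by rw [hd]; field_simp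
  set Y : ℝ := 3 * T + 48 * T ^ 2 / δ with hYdef
  have hY1 : 1 ≤ Y := by
    have : 0 ≤ 48 * T ^ 2 / δ := by positivity
    rw [hYdef]; linarith
  have hTY : T < Y / 2 := by
    have : 0 ≤ 48 * T ^ 2 / δ := by positivity
    rw [hYdef]; linarith
  have hTδ : 48 * T ^ 2 / Y ≤ δ := by
    have h1 : 48 * T ^ 2 / δ ≤ Y := by rw [hYdef]; linarith
    rw [div_le_iff₀ hδ] at h1
    rw [div_le_iff₀ (by linarith : (0:ℝ) < Y)]; linarith
  set K : ℝ := (30 / d) ^ 4 with hK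
  have hK1 : 1 ≤ K := by
    rw [hK]; apply one_le_pow₀
    rw [le_div_iff₀ hd0]; linarith
  have hlogK : Real.log K ≤ η' * B := by
    have h1 : 30 / d = (210 / δ) * B := by rw [hd, hTdef]; field_simp; ring
    rw [hK, h1, Real.log_pow]
    set x : ℝ := 210 / δ * B
    have hx : 0 < x := by positivity
    have h2 : Real.log x ≤ 2 * Real.sqrt x := by
      have := Real.log_le_sub_one_of_pos (Real.sqrt_pos.2 hx)
      rw [Real.log_sqrt hx.le] at this; linarith
    have h3 : 64 * x ≤ (η' * B) ^ 2 := by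
      have h4 : 64 * (210 / δ) / η' ^ 2 ≤ B := le_trans (le_max_right _ _) hBlarge
      rw [div_le_iff₀ (by positivity)] at h4
      have : 64 * (210 / δ) * (B : ℝ) ≤ B * η' ^ 2 * B :=
        mul_le_mul_of_nonneg_right h4 (by positivity)
      nlinarith
    have h5 : 8 * Real.sqrt x ≤ η' * B := by
      nlinarith [Real.sq_sqrt hx.le, Real.sqrt_nonneg x, mul_pos hη' (lt_of_lt_of_le one_pos hB1)]
    push_cast
    linarith
  exact ⟨B, η', t, ρ, δ, d, T, Y, rfl, hη', ht0, ht1, hρ, hρt, hδ, hδ8, hδρ, hB, rfl, hT, hd0,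
    hdδ, hdT, hY1, hTY, hTδ, hK ▸ hlogK⟩

/-- For every `η > 0` there is `c > 0` such that, for all large `N`, at most `2 ^ (η N)` real
Littlewood polynomials of length `N` satisfy `|‖P z‖ / √N - 1| ≤ c` on the whole unit circle. -/
theorem result : ∀ η : ℝ, 0 < η → ∃ c : ℝ, 0 < c ∧ ∃ N₀ : ℕ, ∀ N : ℕ, N₀ ≤ N →
    (Set.ncard {e : Fin N → Bool | ∀ z : ℂ, ‖z‖ = 1 →
      |‖∑ k, (if e k then (1 : ℂ) else -1) * z ^ (k : ℕ)‖ / Real.sqrt N - 1| ≤ c} : ℝ)
      ≤ (2 : ℝ) ^ (η * N) := by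
  intro η hη
  obtain ⟨B, η', t, ρ, δ, d, T, Y, hη'def, hη', ht0, ht1, hρ, hρt, hδ, hδ8, hδρ, hB, hTdef, hT,
    hd0, hdδ, hdT, hY1, hTY, hTδ, hlogK'⟩ := params hη
  subst hTdef
  obtain ⟨K, hK⟩ : ∃ K : ℝ, K = (30 / d) ^ 4 := ⟨_, rfl⟩
  rw [← hK] at hlogK'
  have hlogK := hlogK'
  refine ⟨Real.exp (-Y) / 6, by positivity, B, fun N hN => ?_⟩
  set c : ℝ := Real.exp (-Y) / 6 with hc
  have hc0 : 0 ≤ c := by positivity
  have hc1 : c ≤ 1 / 2 := by
    have : Real.exp (-Y) ≤ 1 := Real.exp_le_one_iff.2 (by linarith)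
    rw [hc]; linarith
  have hcY : 3 * c < Real.exp (-Y) := by rw [hc]; linarith [Real.exp_pos (-Y)]
  have hN0 : 0 < N := lt_of_lt_of_le hB hN
  have hNB : (B : ℝ) ≤ N := by exact_mod_cast hN
  classical
  set S : Finset (Fin N → Bool) := univ.filter (fun e => Flat c e) with hS
  have hset : Set.ncard {e : Fin N → Bool | ∀ z : ℂ, ‖z‖ = 1 →
      |‖∑ k, (if e k then (1 : ℂ) else -1) * z ^ (k : ℕ)‖ / Real.sqrt N - 1| ≤ c} = S.card := by
    rw [← Set.ncard_coe_finset]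
    congr 1
    ext e
    simp [hS, Flat, pol, sg]
  rw [hset]
  -- roots of unity
  set ζ : ℂ := exp (2 * Real.pi * I / N) with hζdef
  have hζ : IsPrimitiveRoot ζ N := Complex.isPrimitiveRoot_exp N hN0.ne'
  have hζn : ‖ζ‖ = 1 := hζ.norm'_eq_one hN0.ne'
  have hζpow : ∀ m : ℕ, ζ ^ m = exp (I * ((2 * Real.pi * m : ℝ) : ℂ) / N) := by
    intro m
    rw [hζdef, ← Complex.exp_nat_mul]
    congr 1; push_cast; ring
  have hblock : ∀ e ∈ S, ∃ sl, BlockApprox N B ζ δ e sl := by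
    intro e he
    have hef : Flat c e := (mem_filter.1 he).2
    choose b hb using fun i : ℕ => hef.block hN0 hY1 hc0 hc1 hcY hTY (by linarith) hTδ
      (a := ζ ^ (i * B)) (by simp [hζn])
    exact ⟨b, hb⟩
  have hcard := flat_count hN0 hB hc1 hζ hζn hζpow hδ.le hδ8 hd0 hdδ hdT hδρ S
    (fun e he => (mem_filter.1 he).2) hblock
  have hball : (((univ : Finset (Finset (Fin N))).filter
      fun s => (s.card : ℝ) ≤ ρ * Fintype.card (Fin N)).card : ℝ) ≤ Real.exp (N * η') := by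
    refine (ball_count ht0 ht1 hρ.le).trans ?_
    rw [Fintype.card_fin]
    gcongr
  have himg : ((paramBox d).card : ℝ) ^ (N / B + 1) ≤ Real.exp (2 * η' * N) := by
    have hd1 : d ≤ 1 := by linarith
    have hK0 : 0 < K := by rw [hK]; positivity
    calc ((paramBox d).card : ℝ) ^ (N / B + 1) ≤ K ^ (N / B + 1) :=
          hK ▸ pow_le_pow_left₀ (by positivity) (paramBox_card hd0 hd1) _
      _ ≤ Real.exp (η' * B) ^ (N / B + 1) := by
          refine pow_le_pow_left₀ hK0.le ?_ _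
          rw [← Real.exp_log hK0]; exact Real.exp_le_exp.2 hlogK
      _ = Real.exp (((N / B + 1 : ℕ) : ℝ) * (η' * B)) := (Real.exp_nat_mul _ _).symm
      _ ≤ Real.exp (2 * η' * N) := by
          refine Real.exp_le_exp.2 ?_
          have h1 : ((N / B : ℕ) : ℝ) * B ≤ N := by exact_mod_cast Nat.div_mul_le_self N B
          push_cast
          nlinarith
  calc (S.card : ℝ) ≤ ((((univ : Finset (Finset (Fin N))).filter
        fun s => (s.card : ℝ) ≤ ρ * Fintype.card (Fin N)).card : ℕ) : ℝ)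
        * ((paramBox d).card : ℝ) ^ (N / B + 1) := by exact_mod_cast hcard
    _ ≤ Real.exp (N * η') * Real.exp (2 * η' * N) :=
        mul_le_mul hball himg (by positivity) (Real.exp_nonneg _)
    _ = (2 : ℝ) ^ (η * N) := by
        rw [← Real.exp_add, Real.rpow_def_of_pos two_pos]
        congr 1; rw [hη'def]; ring

end Vale.Agent.Results.P110.FlatEntropy
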