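import Vale.Agent.P110.Exist.Main
import Vale.Agent.P110.Exist.Colour
import Vale.Agent.P110.Exist.Rounding
import Vale.Agent.P110.Exist.Sample
import Vale.Agent.P110.Exist.Wave
import Vale.Agent.P110.Exist.Arith
import Vale.Agent.P110.Exist.Gauss
import Vale.Agent.P110.Exist.Tiling
import Vale.Agent.P110.Exist.Fresnel
import Vale.Agent.P110.Exist.Staircase
import Vale.Agent.P110.Exist.PathCoef
import Vale.Agent.P110.Exist.Layout.Cells
import Vale.Agent.P110.Exist.Layout.PathBuild
import Vale.Agent.P110.Exist.Layout.RunOps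
import Vale.Agent.P110.Exist.Layout.Main

/-!
Ultraflat Littlewood polynomials with real coefficients exist.
-/

namespace Vale.Agent.Results.P110.Ultraflat

open Vale.Agent.P110.Exist

/-- For every `c > 0` there are Littlewood polynomials of arbitrarily large length `N` with
modulus between `(1 - c) √N` and `(1 + c) √N` on the whole unit circle. -/
theorem result : ∀ c : ℝ, 0 < c → ∀ N0 : ℕ, ∃ N : ℕ, N0 ≤ N ∧ ∃ s : Fin N → ℝ,
    (∀ k, s k = -1 ∨ s k = 1) ∧ ∀ z : ℂ, ‖z‖ = 1 →
      (1 - c) * Real.sqrt N ≤ ‖∑ k, (s k : ℂ) * z ^ (k : ℕ)‖ ∧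
        ‖∑ k, (s k : ℂ) * z ^ (k : ℕ)‖ ≤ (1 + c) * Real.sqrt N :=
  Main.explicit_of_specs (roundingSpec colour sampleSpec)
    (boundedFlat_of_pathExist (PathPf.pathSpec_of_fresnelSpec fresnel_spec)
      (Layout.pathExist Wave.wave (Layout.cells tiling arithSpec gaussSpec) fresnel_spec
        (staircase fresnel_spec) Layout.pathBuild Layout.rev))

end Vale.Agent.Results.P110.Ultraflat
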